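import Crest.Agent.X212.Wal9.Lev

/-!
# Row 212, DEG-WALL (helper9), part 2: moments of a neck from the profile of the levels
-/

set_option autoImplicit false
set_option linter.unusedSectionVars false
noncomputable section
open scoped Manifold ContDiff Topology InnerProductSpace
open MeasureTheory Set Function Filter

namespace Crest.Agent.X212.Wal9
open An Sw Sob92 Cyf70 Sw.En3 Pb50
open Nd18 (Jv Dp)
open M (Mf pm)

variable {κ lam ν : Type} [Fintype κ] [Fintype lam] [Fintype ν] [DecidableEq ν]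
  {e : En3 κ lam ν} {X X' : Mf 4} {nc nc' : ℕ} {b : Bg X.I X.M κ lam ν nc} (K : Nk e b)
  {s : Bool} {t r T C : ℝ} {c : Cfg X.M κ ν}

/-- the flattened level -/
def G (c : Cfg X.M κ ν) (t : ℝ) : ℝ := e.ψ (lb (K.pb c) t)

/-- the density of the moment -/
def dn (s : Bool) (r : ℝ) (c : Cfg X.M κ ν) (t : ℝ) : ℝ := K.β s t * (pm s * (G K c t - e.ψ r))

theorem β_mem (s : Bool) (t : ℝ) : 0 ≤ K.β s t ∧ K.β s t ≤ 1 := by
  cases s <;> simp [Nk.β, Real.smoothTransition.nonneg, Real.smoothTransition.le_one]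

theorem β_cont (s : Bool) : Continuous (K.β s) := by
  have := Real.smoothTransition.continuous
  cases s <;> simp only [funext (Nk.β.eq_1 K _), Bool.false_eq_true, if_false, if_true] <;> fun_prop

theorem β_add (hp : K.p = none) (hq : K.q = none) (t : ℝ) : K.β true t + K.β false t = 1 := by
  simp [Nk.β, hp, hq]

theorem st_ne {x : ℝ} (h : Real.smoothTransition x ≠ 0) : 0 < x :=
  not_le.1 fun k => h (Real.smoothTransition.zero_of_nonpos k)

theorem st_ne' {x : ℝ} (h : 1 - Real.smoothTransition x ≠ 0) : x < 1 :=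
  not_le.1 fun k => h (by rw [Real.smoothTransition.one_of_one_le k, sub_self])

theorem β_T (s : Bool) : ∃ T, 0 ≤ T ∧ (∀ t, K.β s t ≠ 0 → -T ≤ pm s * t) ∧
    ∀ t, T ≤ pm s * t → K.β s t = 1 := by
  obtain ⟨x, hx⟩ : ∃ x, ∀ t, K.β s t = if s then Real.smoothTransition (t - x)
      else 1 - Real.smoothTransition (t - x) := by cases s <;> exact ⟨_, fun _ => rfl⟩
  refine ⟨|x| + 1, by positivity, fun t => ?_, fun t => ?_⟩ <;> rw [hx] <;> cases s <;>
    simp only [pm, Bool.false_eq_true, if_false, if_true] <;> intro h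
  · linarith [st_ne' h, le_abs_self x]
  · linarith [st_ne h, neg_abs_le x]
  · rw [Real.smoothTransition.zero_of_nonpos (by linarith [neg_abs_le x]), sub_zero]
  · exact Real.smoothTransition.one_of_one_le (by linarith [le_abs_self x])

theorem β_dp (h : K.Inf s) (ht : K.β s t ≠ 0) : t ∈ Dp K.p K.q 2 := by
  cases s
  · refine ⟨by simp [show K.p = none from h], fun q hq => ?_⟩
    have := st_ne' ht
    rw [Option.mem_def.1 hq, Option.getD_some] at this
    linarith
  · refine ⟨fun p hp => ?_, by simp [show K.q = none from h]⟩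
    have := st_ne ht
    rw [Option.mem_def.1 hp, Option.getD_some] at this
    linarith

theorem β_Wn (h : K.Inf s) (ht : K.β s t ≠ 0) : Wn t ⊆ K.deep 1 := fun τ hτ =>
  ⟨fun _ ha => let ⟨a, k, e⟩ := Option.mem_map.1 ha; by linarith [(β_dp K h ht).1 a k, hτ.1],
    fun _ ha => let ⟨a, k, e⟩ := Option.mem_map.1 ha; by linarith [(β_dp K h ht).2 a k, hτ.2]⟩

theorem mo_act (hi : e.Inv) (h : K.Inf s) (hc : b.Adm c) {u : X.M → ℂ} (hu : Gau X.I u) :
    K.mo s r (b.act u c) = K.mo s r c :=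
  integral_congr_ae (.of_forall fun t => by
    by_cases k : K.β s t = 0
    · simp only [k, zero_mul]
    · simp only [lb_act K hi hc hu (Nd18.Dp_mono one_le_two (β_dp K h k))])

theorem abs_pm (s : Bool) (t : ℝ) : |pm s * t| = |t| := by cases s <;> simp [pm]

theorem dn_le (h : ∀ t, K.β s t ≠ 0 → |G K c t| ≤ C) (t : ℝ) : |dn K s r c t| ≤ |C| + |e.ψ r| := by
  by_cases k : K.β s t = 0
  · simp only [dn, k, zero_mul, abs_zero]; positivity
  · rw [dn, abs_mul, abs_pm, abs_of_nonneg (β_mem K s t).1]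
    exact (mul_le_of_le_one_left (abs_nonneg _) (β_mem K s t).2).trans
      ((abs_sub _ _).trans (add_le_add ((h t k).trans (le_abs_self C)) le_rfl))

theorem dn_zero {T₀ : ℝ} (h0 : ∀ t, K.β s t ≠ 0 → -T₀ ≤ pm s * t)
    (h : ∀ t, K.β s t ≠ 0 → T < pm s * t → G K c t = e.ψ r) (t : ℝ) (ht : max T T₀ < |t|) :
    dn K s r c t = 0 := by
  by_cases k : K.β s t = 0
  · rw [dn, k, zero_mul]
  · rw [← abs_pm s, max_lt_iff] at ht
    rw [dn, h t k (by cases abs_cases (pm s * t) <;> linarith [h0 t k, ht.1, ht.2]), sub_self,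
      mul_zero, mul_zero]

theorem mo_le (s : Bool) (r T C : ℝ) : ∃ B, ∀ c, (∀ t, K.β s t ≠ 0 → |G K c t| ≤ C ∧
    (T < pm s * t → G K c t = e.ψ r)) → K.mo s r c ≤ B :=
  let ⟨_, h0, h1, _⟩ := β_T K s
  ⟨_, fun _ h => int_le (le_max_of_le_right h0) (dn_le K fun t k => (h t k).1)
    (dn_zero K h1 fun t k => (h t k).2)⟩

theorem dn_int (H : e.OK) (hs : K.Inf s) (hc : ∀ τ ∈ K.J, Sa (K.pb c) τ)
    (h : ∀ t, K.β s t ≠ 0 → |G K c t| ≤ C ∧ (T < pm s * t → G K c t = e.ψ r)) :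
    Integrable (dn K s r c) := by
  obtain ⟨_, -, h1, -⟩ := β_T K s
  obtain ⟨g, hg, k⟩ := av_meas Nd18.isOpen_Jv (contOn_L H hc)
  refine intg ?_ (dn_le K fun t k => (h t k).1) (dn_zero K h1 fun t k => (h t k).2)
  have : dn K s r c = fun t => K.β s t * (pm s * (e.ψ (g t) - e.ψ r)) := funext fun t => by
    by_cases k' : K.β s t = 0
    · simp only [dn, k', zero_mul]
    · rw [← k t fun τ hτ => deep_J K one_pos (β_Wn K hs k' hτ)]; rfl
  rw [this]
  exact (β_cont K s).measurable.mul (((H.sψ.continuous.measurable.comp hg).sub_const _).const_mul _)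

/-- the profile of the levels: a plateau between `a false` and `a true` -/
structure Prf (c : Cfg X.M κ ν) (a r : Bool → ℝ) (m T C : ℝ) : Prop where
  sa : ∀ τ ∈ K.J, Sa (K.pb c) τ
  bd : ∀ t, Wn t ⊆ K.deep 1 → |G K c t| ≤ C
  mid : ∀ t, Wn t ⊆ K.deep 1 → a false + T < t → t < a true - T → G K c t = e.ψ m
  far : ∀ t, Wn t ⊆ K.deep 1 → ∀ s, K.Inf s → T < pm s * (t - a s) → G K c t = e.ψ (r s)

section prf
variable {K} {ι : Type} {l : Filter ι} {z : ι → Cfg X.M κ ν} {a : ι → Bool → ℝ} {ρ : Bool → ℝ}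
  {m : ℝ} (h : ∀ᶠ i in l, Prf K (z i) (a i) ρ m T C)

theorem Prf.int {a : Bool → ℝ} (h : Prf K c a ρ m T C) (H : e.OK) (hs : K.Inf s) :
    Integrable (dn K s (ρ s) c) :=
  dn_int K H hs h.sa (T := T + pm s * a s) fun t k => ⟨h.bd t (β_Wn K hs k),
    fun k' => h.far t (β_Wn K hs k) s hs (by linarith)⟩

theorem tend_lin {f g : ι → ℝ} {μ A B : ℝ} (hμ : 0 < μ) (hg : Tendsto g l atTop)
    (k : ∀ᶠ i in l, μ * (g i - A) - B ≤ f i) : Tendsto f l atTop :=
  tendsto_atTop_mono' l k (tendsto_atTop_add_const_right _ _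
    ((tendsto_atTop_add_const_right _ _ hg).const_mul_atTop hμ))

include h

theorem mo_bdd (hs : K.Inf s) (h0 : ∀ᶠ i in l, a i s = 0) : ∃ B, ∀ᶠ i in l, K.mo s (ρ s) (z i) ≤ B :=
  (mo_le K s (ρ s) T C).imp fun _ hB => (h.and h0).mono fun i ⟨h, h0⟩ => hB _ fun t k =>
    ⟨h.bd t (β_Wn K hs k), fun k' => h.far t (β_Wn K hs k) s hs (by rwa [h0, sub_zero])⟩

variable (H : e.OK) (ha : Tendsto (fun i => a i true - a i false) l atTop)
include H ha

theorem mo_top (hs : K.Inf s) (hm : 0 < pm s * (e.ψ m - e.ψ (ρ s))) (h0 : ∀ᶠ i in l, a i (!s) = 0) :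
    Tendsto (fun i => K.mo s (ρ s) (z i)) l atTop := by
  obtain ⟨T₀, k0, k1, k2⟩ := β_T K s
  have m1 := le_max_left T T₀
  have m2 := le_max_right T T₀
  refine tend_lin hm ha ((h.and h0).mono fun i ⟨h, h0⟩ => le_int (F := dn K s (ρ s) (z i))
    (h.int H hs) (k0.trans m2)
    (by positivity) hm.le (fun t => (abs_le.1 (dn_le K (fun t k => h.bd t (β_Wn K hs k)) t)).1)
    (fun t a1 a2 => ?_) fun t a1 a2 => ?_)
  · by_cases k : K.β s t = 0
    · rw [dn, k, zero_mul]
    refine mul_nonneg (β_mem K s t).1 ?_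
    have k3 := k1 t k
    by_cases k4 : T < pm s * (t - a i s)
    · rw [h.far t (β_Wn K hs k) s hs k4, sub_self, mul_zero]
    rw [h.mid t (β_Wn K hs k)]
    · exact hm.le
    all_goals
      cases s <;> simp only [pm, Bool.false_eq_true, if_false, if_true, Bool.not_false,
        Bool.not_true] at k3 k4 h0 <;> cases abs_cases (t - a i false) <;>
        cases abs_cases (t - a i true) <;> linarith
  · have k : K.β s t = 1 := k2 t (by
      cases s <;> simp only [pm, Bool.false_eq_true, if_false, if_true, Bool.not_false,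
        Bool.not_true] at h0 ⊢ <;> linarith)
    rw [dn, h.mid t (β_Wn K hs (k.trans_ne one_ne_zero)) (by linarith) (by linarith), k, one_mul]

theorem mo_sum (hT : 0 ≤ T) (hp : K.p = none) (hq : K.q = none) (h1 : e.ψ (ρ true) < e.ψ m)
    (h2 : e.ψ m < e.ψ (ρ false)) :
    Tendsto (fun i => K.mo true (ρ true) (z i) + K.mo false (ρ false) (z i)) l atTop := by
  have hμ := lt_min (sub_pos.2 h1) (sub_pos.2 h2)
  have hW : ∀ t, Wn t ⊆ K.deep 1 := fun t τ _ => by simp [Nk.deep, Jv, hp, hq]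
  refine tend_lin hμ ha (h.mono fun i h => (le_int ((h.int H (s := true) hq).add
    (h.int H (s := false) hp)) hT (C := |C| + |e.ψ (ρ true)| + (|C| + |e.ψ (ρ false)|))
    (by positivity) hμ.le (fun t => ?_) (fun t a1 a2 => ?_) fun t a1 a2 => ?_).trans_eq
    (integral_add' (h.int H (s := true) hq) (h.int H (s := false) hp)))
  · linarith [(abs_le.1 (dn_le K (s := true) (r := ρ true) (fun t _ => h.bd t (hW t)) t)).1,
      (abs_le.1 (dn_le K (s := false) (r := ρ false) (fun t _ => h.bd t (hW t)) t)).1,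
      Pi.add_apply (dn K true (ρ true) (z i)) (dn K false (ρ false) (z i)) t]
  · have k : e.ψ (ρ true) ≤ G K (z i) t ∧ G K (z i) t ≤ e.ψ (ρ false) := by
      by_cases k1 : T < pm true * (t - a i true)
      · rw [h.far t (hW t) true hq k1]; exact ⟨le_rfl, by linarith⟩
      by_cases k2 : T < pm false * (t - a i false)
      · rw [h.far t (hW t) false hp k2]; exact ⟨by linarith, le_rfl⟩
      simp only [pm, Bool.false_eq_true, if_false, if_true] at k1 k2
      rw [h.mid t (hW t) (by cases abs_cases (t - a i false) <;> linarith)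
        (by cases abs_cases (t - a i true) <;> linarith)]
      exact ⟨h1.le, h2.le⟩
    exact add_nonneg (mul_nonneg (β_mem K _ t).1 (by simp [pm, k.1]))
      (mul_nonneg (β_mem K _ t).1 (by simp [pm, k.2]))
  · simp only [Pi.add_apply, dn, h.mid t (hW t) a1 a2, pm, Bool.false_eq_true, if_false, if_true]
    nlinarith [β_add K hp hq t, (β_mem K true t).1, (β_mem K false t).1,
      min_le_left (e.ψ m - e.ψ (ρ true)) (e.ψ (ρ false) - e.ψ m),
      min_le_right (e.ψ m - e.ψ (ρ true)) (e.ψ (ρ false) - e.ψ m)]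

end prf

section tr
variable {b' : Bg X'.I X'.M κ lam ν nc'} (K' : Nk e b') {φ : X'.M → X.M} {δ : ℝ}
  (h : ∀ y τ, τ ∈ K'.J → τ + δ ∈ K.J → φ (K'.ψ (y, τ)) = K.ψ (y, τ + δ))
include h

theorem tr_sa (hc : b.Adm c) (h1 : t ∈ K'.J) (h2 : t + δ ∈ K.J) : Sa (K'.pb (c.pb φ)) t := by
  intro y
  have E : ∀ᶠ x in 𝓝 (y, t), φ (K'.ψ x) = K.ψ (x.1, x.2 + δ) := by
    filter_upwards [continuous_snd.continuousAt.eventually (Nd18.isOpen_Jv.eventually_mem h1),
      (continuous_snd.add continuous_const).continuousAt.eventually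
        (Nd18.isOpen_Jv.eventually_mem h2)] with x k1 k2 using h _ _ k1 k2
  have g : ContMDiffAt (IC e.Y.I) (IC e.Y.I) ∞ (fun x : e.Y.M × ℝ => (x.1, x.2 + δ)) (y, t) :=
    contMDiffAt_fst.prodMk (contMDiffAt_snd.add contMDiffAt_const)
  exact ⟨fun k => (ContMDiffAt.comp (g := (K.pb c).a k) (y, t) ((sa_pb K hc h2 y).1 k)
      g).congr_of_eventuallyEq (E.mono fun x hx => congrArg (c.a k) hx),
    (ContMDiffAt.comp (g := (K.pb c).Φ) (y, t) (sa_pb K hc h2 y).2 g).congr_of_eventuallyEq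
      (E.mono fun x hx => congrArg c.Φ hx)⟩

theorem tr_G (h1 : Wn (t - δ) ⊆ K'.J) (h2 : Wn t ⊆ K.J) : G K' (c.pb φ) (t - δ) = G K c t := by
  simp only [G, lb, av_eq]
  refine congrArg _ (setIntegral_congr_fun measurableSet_Ioo fun p hp => ?_)
  have e : t - δ + p - 1 / 2 + δ = t + p - 1 / 2 := by ring
  have k := fun y => h y _ (h1 (mem_Wn hp)) (e ▸ h2 (mem_Wn hp))
  rw [e] at k
  exact congrArg (fun v => bp p * L v) (YC.ext (funext₂ fun j y => congrArg (c.a (some j)) (k y))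
    (funext fun y => congrArg c.Φ (k y)))

end tr

section ng
variable {K} {b' : Bg X.I X.M κ lam ν nc'} {K' : Nk e b'} (h : K'.ng = K.ng)
include h

theorem ng_pb (c : Cfg X.M κ ν) : K'.pb c = K.pb c := by simp only [Nk.pb, ng_ψ h]

theorem ng_J : K'.J = K.J := by simp only [Nd18.Nk.J, ng_p h, ng_q h]

theorem ng_mo : K'.mo s r c = K.mo s r c := by simp only [Nk.mo, Nk.β, ng_p h, ng_q h, ng_pb h]

theorem Prf.ng {a ρ : Bool → ℝ} {m : ℝ} (k : Prf K' c a ρ m T C) : Prf K c a ρ m T C := by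
  obtain ⟨k1, k2, k3, k4⟩ := k
  simp only [G, Nk.deep, ng_J h, ng_p h, ng_q h, ng_pb h, ng_inf h] at k1 k2 k3 k4
  exact ⟨k1, k2, k3, k4⟩

end ng

theorem ψ_lt {g : e.Gen} (hg : g.OK) {v v' : e.YC} (h : Gd v) (h' : Gd v') (k : L v < L v') :
    e.ψ (L v) < e.ψ (L v') := by
  obtain ⟨o, ho⟩ := hg.all v h.crit
  obtain ⟨o', ho'⟩ := hg.all v' h'.crit
  rw [h.inv _ _ (hg.crit o).1 ho, h.inv _ _ (hg.crit o').1 ho'] at k ⊢
  exact hg.sep o o' k

end Crest.Agent.X212.Wal9
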