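import Crest.Agent.X212.Wal9.Mo
import Crest.Agent.X212.Sm10.DgS

/-!
# Row 212, DEG-WALL (helper9): the wall functions along a degeneration (`Sm10.WallP`)
-/

set_option autoImplicit false
set_option linter.unusedSectionVars false
noncomputable section
open scoped Manifold ContDiff Topology InnerProductSpace
open MeasureTheory Set Function Filter

namespace Crest.Agent.X212.Wal9
open An Sw Sob92 Cyf70 Sw.En3 Pb50 Sm10
open Nd18 (Jv Dp)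
open M (Mf pm)

variable {κ lam ν : Type} [Fintype κ] [Fintype lam] [Fintype ν] [DecidableEq ν]
  {d : Dt κ lam ν} [Fintype d.𝓔] {Sl : Type} [Fintype Sl] {X X' : Mf 4} {nc nr nc' nr' : ℕ}
  {T T' : Type} [NormedAddCommGroup T] [NormedSpace ℝ T] [FiniteDimensional ℝ T]
  [NormedAddCommGroup T'] [NormedSpace ℝ T'] [FiniteDimensional ℝ T']
  {s : StS d Sl X} {s' : StS d Sl X'} {σ : Cel s nc nr T} {σ' : Cel s' nc' nr' T'}

theorem mo_eqv (h : σ.OK) {j : d.𝓔 × Sl} {b : Bool} (hb : s.Inf j b) {y y' : σ.Pnt}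
    (k : σ.Eqv y y') : s.mo σ.β j b y'.1.2 = s.mo σ.β j b y.1.2 := by
  obtain ⟨K, k1, k2⟩ := id hb
  obtain ⟨K', -, k3⟩ := h.en _ y.2.1 j K k1
  obtain ⟨-, u, hu, k⟩ := k
  simp only [Pz.mo, Option.mem_def.1 k1, Option.elim_some, ← ng_mo k3, k]
  exact mo_act K' (h.gd j b hb).inv ((ng_inf k3).2 k2) y.2.2.1 hu.1

theorem len_off {P : PcS d Sl X nc} {j : d.𝓔 × Sl} (h : P.Off j) : P.len j = 2 := by
  cases e : P.nk j with
  | none => simp [Pz.len, e]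
  | some K =>
    obtain ⟨a, h1, h2⟩ := h K e
    simp [Pz.len, e, h1, h2]

theorem len_bdd (h : σ.OK) {j : d.𝓔 × Sl} (hj : s.nk j = none) {t₀ : T} (ht : t₀ ∈ σ.Q) :
    ∃ C, ∀ᶠ t in 𝓝 t₀, (σ.P t).len j ≤ C := by
  rcases h.nk t₀ ht j hj with k | ⟨K₀, -, a, b, -, -, ℓ, V, hV, k1, k2⟩
  · exact ⟨2, k.mono fun t k => (len_off k).le⟩
  have c : ∀ a, ContinuousAt (fun t => ℓ (t, a)) t₀ := fun a =>
    ContinuousAt.comp (f := fun t => (t, a)) (k1.continuousOn.continuousAt (prod_mem_nhds hV univ_mem))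
      (by fun_prop)
  refine ⟨ℓ (t₀, b) - ℓ (t₀, a) + 1, (((c b).sub (c a)).eventually (ge_mem_nhds (lt_add_one _))).mp
    (eventually_of_mem hV fun t ht k => ?_)⟩
  obtain ⟨-, K, h1, h2, h3, -⟩ := k2 t ht
  simpa [Pz.len, Option.mem_def.1 h1, h2, h3] using k

section side
variable {ε : d.𝓔} {a a' : Sl} {b : Bool} {ι : Type} {l : Filter ι} {y : ι → σ.Pnt} {t : ι → T'}
  {φ : ι → OpenPartialHomeomorph X'.M X.M} {r r' δ : ι → ℝ} {x : σ'.Pnt} {O : d.𝓔 × Sl → Prop}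
  {π : d.𝓔 × Sl → Sl} {cc : Fin nc' → Fin nc} {J : Finset d.W} (h : σ.OK) (h' : σ'.OK)
  (hs : DSid σ' (ε, a') b l (fun i => (y i).1.2) t φ r x)
include h' hs

theorem sid {j : d.𝓔 × Sl} {K' : Nk (d.e j.1) s'.bg} (hK : K' ∈ s'.nk j) : ∃ R C, ∀ᶠ i in l,
    ∀ (K : Nk (d.e j.1) (σ.P (y i).1.1).bg) (δ : ℝ),
    (∀ y τ, τ ∈ K'.J → τ + δ ∈ K.J → φ i (K'.ψ (y, τ)) = K.ψ (y, τ + δ)) → ∀ u, Wn u ⊆ K.J →
    Wn (u - δ) ⊆ {τ ∈ K'.deep 1 | j = (ε, a') → pm b * τ < r i} → |G K (y i).1.2 u| ≤ C ∧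
      ∀ b', K'.Inf b' → R < pm b' * (u - δ) → G K (y i).1.2 u = (d.e j.1).ψ (L (σ'.β j b')) := by
  obtain ⟨K₀, k1, k2⟩ := h'.en _ x.2.1 j K' hK
  obtain ⟨R, C, k⟩ := lev (h'.site.en j) K' (c := K'.pb x.1.2) (β := σ'.β j)
    (fun τ hτ => ng_pb k2 _ ▸ sa_pb K₀ x.2.2.1 (ng_J k2 ▸ hτ))
    (fun b' hb => ⟨h'.gd j b' ⟨K', hK, hb⟩, fun η hη => ng_pb k2 _ ▸ far (h'.site.en j) K₀
      ((ng_inf k2).2 hb) x.2.2.1 (h'.gd j b' ⟨K', hK, hb⟩).crit.1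
      (x.2.2.2 j b' K₀ k1 ((ng_inf k2).2 hb)) 1 hη⟩) (fun i τ hτ => hτ.1) (hs.nk j K' hK 1)
  refine ⟨R, C, k.mono fun i hi K δ e u h1 h2 => ?_⟩
  have h3 : Wn (u - δ) ⊆ K'.J := fun τ hτ => deep_J K' one_pos (h2 hτ).1
  rw [← tr_G K K' e h3 h1]
  exact hi _ h2 fun τ hτ => tr_sa K K' e (y i).2.2.1 (h3 hτ)
    (h1 ⟨by linarith [hτ.1], by linarith [hτ.2]⟩)

variable (hH : ∀ᶠ i in l, t i ∈ σ'.Q ∧
  Half (σ.P (y i).1.1) (σ'.P (t i)) ε a a' b (φ i) (δ i) (r' i) O π cc J)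
include hH

theorem half : ∃ K' ∈ s'.nk (ε, a'), K'.Inf b ∧ ∃ R C, ∀ᶠ i in l, ∃ K ∈ (σ.P (y i).1.1).nk (ε, a),
    (if b then K.p = K'.p.map (· + δ i) else K.q = K'.q.map (· + δ i)) ∧ ∀ u, Wn u ⊆ K.deep 1 →
    pm b * (u - δ i) + 1 / 2 ≤ r i → |G K (y i).1.2 u| ≤ C ∧ ∀ b', K'.Inf b' →
      R < pm b' * (u - δ i) → G K (y i).1.2 u = (d.e ε).ψ (L (σ'.β (ε, a') b')) := by
  obtain ⟨K', hK, hb⟩ := hs.inf
  obtain ⟨R, C, k⟩ := sid h' hs hK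
  refine ⟨K', hK, hb, R, C, (k.and hH).mono fun i ⟨k, ht, H⟩ => ?_⟩
  obtain ⟨K, k1, K₀, k2, -, k3, -, k4, -⟩ := H.nk
  obtain ⟨K₁, k5, k6⟩ := h'.en _ ht _ K' hK
  obtain rfl := Option.mem_unique k2 k5
  rw [ng_p k6, ng_q k6] at k3
  rw [ng_J k6, ng_ψ k6] at k4
  refine ⟨K, k1, k3, fun u h1 h2 => k K _ k4 u (fun τ hτ => deep_J K one_pos (h1 hτ))
    fun τ hτ => ?_⟩
  have h3 := h1 (a := τ + δ i) ⟨by linarith [hτ.1], by linarith [hτ.2]⟩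
  cases b
  · refine ⟨⟨by simp [show K'.p = none from hb], fun _ hq => ?_⟩, fun _ => ?_⟩
    · obtain ⟨q, h4, rfl⟩ := Option.mem_map.1 hq
      linarith [h3.2 (q + δ i - 1) (by simp [show K.q = _ from k3, Option.mem_def.1 h4])]
    · simp only [pm, Bool.false_eq_true, if_false] at h2 ⊢
      linarith [hτ.1]
  · refine ⟨⟨fun _ hq => ?_, by simp [show K'.q = none from hb]⟩, fun _ => ?_⟩
    · obtain ⟨q, h4, rfl⟩ := Option.mem_map.1 hq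
      linarith [h3.1 (q + δ i + 1) (by simp [show K.p = _ from k3, Option.mem_def.1 h4])]
    · simp only [pm, if_true] at h2 ⊢
      linarith [hτ.2]

include h

theorem oth_len {j : d.𝓔 × Sl} (hj : O j) (hn : s.nk j = none) :
    ∃ C, ∀ᶠ i in l, (σ.P (y i).1.1).len j ≤ C := by
  cases e : s'.nk (j.1, π j) with
  | none =>
    obtain ⟨C, k⟩ := len_bdd h' e x.2.1
    refine ⟨max C 2, (hH.and (hs.par.eventually k)).mono fun i ⟨⟨_, H⟩, k⟩ => ?_⟩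
    rcases (H.oth j hj).2.2 with ⟨k1, -⟩ | ⟨K, k1, K', k2, k3, k4, -⟩
    · exact le_max_of_le_right (len_off k1).le
    · refine le_max_of_le_left (le_of_eq_of_le ?_ k)
      simp only [Pz.len, Option.mem_def.1 k1, Option.mem_def.1 k2, Option.elim_some, k3, k4]
  | some K₀ =>
    refine ⟨2, hH.mono fun i ⟨ht, H⟩ => ?_⟩
    rcases (H.oth j hj).2.2 with ⟨k1, -⟩ | ⟨K, k1, K', k2, k3, k4, -⟩
    · exact (len_off k1).le
    obtain ⟨b', hb⟩ := h'.ends _ K₀ e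
    obtain ⟨K₁, k5, k6⟩ := h'.en _ ht _ K₀ e
    obtain rfl := Option.mem_unique k2 k5
    obtain ⟨K₂, k7, -⟩ := inf_site h.toOK (y i).2.1 k1 (b := b')
      (by simpa only [Nk.Inf, k3, k4] using (ng_inf k6).2 hb)
    simp [hn] at k7

theorem oth_mo {j : d.𝓔 × Sl} (hj : O j) {b' : Bool} (hb : s.Inf j b')
    (hβ : σ.β j b' = σ'.β (j.1, π j) b') : ∃ C, ∀ᶠ i in l, s.mo σ.β j b' (y i).1.2 ≤ C := by
  obtain ⟨K₀, h1, h2⟩ := hb
  have k : ∀ᶠ i in l, (j.1, π j) ≠ (ε, a') ∧ ∃ K : Nk (d.e j.1) (σ.P (y i).1.1).bg, K.ng = K₀.ng ∧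
      ∃ K' ∈ s'.nk (j.1, π j), K.p = K'.p ∧ K.q = K'.q ∧
        ∀ x ∈ K'.ψ.source, K.ψ x = φ i (K'.ψ x) := hH.mono fun i ⟨ht, H⟩ => by
    obtain ⟨K₁, k5, k6⟩ := h.en _ (y i).2.1 _ K₀ h1
    have h3 := (ng_inf k6).2 h2
    rcases (H.oth j hj).2.2 with ⟨k1, -⟩ | ⟨K, k1, K', k2, k3, k4, -, k7⟩
    · obtain ⟨c, c1, c2⟩ := k1 K₁ k5
      cases b' <;> simp [Nk.Inf, c1, c2] at h3
    obtain rfl := Option.mem_unique k1 k5
    obtain ⟨K₂, k8, k9⟩ := inf_site h'.toOK ht k2 (b := b') (by simpa only [Nk.Inf, k3, k4] using h3)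
    exact ⟨(H.oth j hj).2.1, K, k6, K₂, k8, k3.trans (ng_p k9), k4.trans (ng_q k9), ng_ψ k9 ▸ k7⟩
  cases e : s'.nk (j.1, π j) with
  | none => exact ⟨0, k.mono fun i ⟨_, _, _, _, k, _⟩ => by simp [e] at k⟩
  | some K' =>
    obtain ⟨R, C, k'⟩ := sid h' hs (Option.mem_def.2 e)
    obtain ⟨B, hB⟩ := mo_le K₀ b' (L (σ.β j b')) R C
    refine ⟨B, (k.and k').mono fun i ⟨⟨k0, K, k1, K₁, k2, k3, k4, k5⟩, k'⟩ => ?_⟩
    obtain rfl := Option.mem_unique k2 (Option.mem_def.2 e)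
    simp only [Pz.mo, Option.mem_def.1 h1, Option.elim_some]
    refine hB _ fun u hu => ?_
    have w : Wn u ⊆ K.deep 1 := by simpa only [Nk.deep, ng_p k1, ng_q k1] using β_Wn K₀ h2 hu
    have := k' K 0 (fun y τ hτ _ => by rw [add_zero, k5 _ (src K₁ hτ y)]) u
      (fun τ hτ => deep_J K one_pos (w hτ)) fun τ hτ =>
        ⟨by simpa only [Nk.deep, k3, k4] using w (sub_zero u ▸ hτ), fun k => absurd k k0⟩
    simp only [G, ng_pb k1, sub_zero] at this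
    exact ⟨this.1, fun hu => hβ ▸ this.2 b' (by simpa only [Nk.Inf, k3, k4] using (ng_inf k1).2 h2) hu⟩

end side

theorem wf_top {ι : Type} {l : Filter ι} {f : ι → ℝ} (h : Tendsto f l atTop) :
    Tendsto (fun i => 1 - Real.exp (-f i)) l (𝓝 1) := by
  simpa using (Real.tendsto_exp_neg_atTop_nhds_zero.comp h).const_sub 1

section two
variable {XL XR : Mf 4} {ncL nrL ncR nrR : ℕ} {TL TR : Type}
  [NormedAddCommGroup TL] [NormedSpace ℝ TL] [FiniteDimensional ℝ TL]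
  [NormedAddCommGroup TR] [NormedSpace ℝ TR] [FiniteDimensional ℝ TR]
  {sL : StS d Sl XL} {sR : StS d Sl XR} {σL : Cel sL ncL nrL TL} {σR : Cel sR ncR nrR TR}
  {p : Spl X XL XR nc ncL ncR d Sl T TL TR} (hp : p.OK σ σL σR) {ι : Type} {l : Filter ι}
  {y : ι → σ.Pnt} {x : σL.Pnt} {z : σR.Pnt} {tL : ι → TL} {tR : ι → TR} {δ : ι → ℝ × ℝ}
  (h1 : ∀ᶠ i in l, σ.R (y i).1.1 (y i).1.2 = 0 ∧ (y i).1.1 = p.par (tL i) (tR i) (δ i) ∧
    Ct p σ σL σR (tL i) (tR i) (δ i)) (h2 : Tendsto (fun i => (δ i).2 - (δ i).1) l atTop)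
  (hL : DSid σL (p.ε, p.aL) true l (fun i => (y i).1.2) tL (fun i => p.φL (δ i))
    (fun i => ((δ i).2 - (δ i).1) / 2 + 1 / 2) x)
  (hR : DSid σR (p.ε, p.aR) false l (fun i => (y i).1.2) tR (fun i => p.φR (δ i))
    (fun i => ((δ i).2 - (δ i).1) / 2 + 1 / 2) z)
include h1

theorem hfL : ∀ᶠ i in l, tL i ∈ σL.Q ∧ Half (σ.P (y i).1.1) (σL.P (tL i)) p.ε p.a p.aL true
    (p.φL (δ i)) (δ i).1 (((δ i).2 - (δ i).1) / 2) (fun j => j ≠ (p.ε, p.a) ∧ p.side j = false) p.π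
    (fun j => p.c (.inl j)) ∅ := h1.mono fun _ k => ⟨k.2.2.QL, k.2.1.symm ▸ k.2.2.L⟩

theorem hfR : ∀ᶠ i in l, tR i ∈ σR.Q ∧ Half (σ.P (y i).1.1) (σR.P (tR i)) p.ε p.a p.aR false
    (p.φR (δ i)) (δ i).2 (((δ i).2 - (δ i).1) / 2) (fun j => j ≠ (p.ε, p.a) ∧ p.side j = true) p.π
    (fun j => p.c (.inr j)) ∅ := h1.mono fun _ k => ⟨k.2.2.QR, k.2.1.symm ▸ k.2.2.R⟩

include hp h2 hL hR

/-- the profile of the levels on the neck of the cut -/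
theorem prf : ∃ KL ∈ sL.nk (p.ε, p.aL), ∃ KR ∈ sR.nk (p.ε, p.aR), ∃ R C, 0 ≤ R ∧ ∀ᶠ i in l,
    ∃ K ∈ (σ.P (y i).1.1).nk (p.ε, p.a), K.p = KL.p.map (· + (δ i).1) ∧
      K.q = KR.q.map (· + (δ i).2) ∧ Prf K (y i).1.2 (fun b => bif b then (δ i).2 else (δ i).1)
        (fun b => L (σ.β (p.ε, p.a) b)) (L (σL.β (p.ε, p.aL) true)) R C := by
  obtain ⟨KL, l1, l2, RL, CL, l3⟩ := half hp.okL hL (hfL h1)
  obtain ⟨KR, r1, r2, RR, CR, r3⟩ := half hp.okR hR (hfR h1)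
  have hR0 : 0 ≤ max 0 (max RL RR) := le_max_left _ _
  have m1 : RL ≤ max 0 (max RL RR) := le_max_of_le_right (le_max_left _ _)
  have m2 : RR ≤ max 0 (max RL RR) := le_max_of_le_right (le_max_right _ _)
  refine ⟨KL, l1, KR, r1, _, max CL CR, hR0, ?_⟩
  filter_upwards [l3, r3, h2.eventually_ge_atTop 0] with i ⟨K, k1, k2, k3⟩ ⟨K', k4, k5, k6⟩ k7
  obtain rfl := Option.mem_unique k1 k4
  simp only [pm, Bool.false_eq_true, if_false, if_true] at k2 k3 k5 k6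
  refine ⟨K, k1, k2, k5, fun τ => sa_pb K (y i).2.2.1, fun u hu => ?_, fun u hu a1 a2 => ?_,
    fun u hu b hb a1 => ?_⟩
  · rcases le_total u (((δ i).1 + (δ i).2) / 2) with k | k
    · exact le_max_of_le_left (k3 u hu (by linarith)).1
    · exact le_max_of_le_right (k6 u hu (by linarith)).1
  · simp only [cond_true, cond_false] at a1 a2
    rcases le_total u (((δ i).1 + (δ i).2) / 2) with k | k
    · exact (k3 u hu (by linarith)).2 true l2 (by simp only [if_true]; linarith)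
    · rw [hp.mid]
      exact (k6 u hu (by linarith)).2 false r2 (by simp only [Bool.false_eq_true, if_false]; linarith)
  · have hi := (inf_iff hp.ok.toOK (y i).2.1 (p.ε, p.a) b).1 ⟨K, k1, hb⟩
    cases b <;> simp only [cond_true, cond_false, pm, Bool.false_eq_true, if_false, if_true] at a1
    · rw [← hp.βL hi]
      exact (k3 u hu (by linarith)).2 false (Option.map_eq_none_iff.1 (k2.symm.trans hb))
        (by simp only [Bool.false_eq_true, if_false]; linarith)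
    · rw [← hp.βR hi]
      exact (k6 u hu (by linarith)).2 true (Option.map_eq_none_iff.1 (k5.symm.trans hb))
        (by simp only [if_true]; linarith)

/-- the walls of the neck of the cut -/
theorem wl [l.NeBot] {g : (d.e p.ε).Gen} (hg : g.OK) : p.o.elim True (s.Inf (p.ε, p.a)) ∧
    Tendsto (fun i => p.o.elim ((σ.P (y i).1.1).len (p.ε, p.a) - 2)
      fun b => s.mo σ.β (p.ε, p.a) b (y i).1.2) l atTop ∧
    ∀ o ≠ p.o, nr = 0 → o.elim (s.nk (p.ε, p.a) = none) (s.Inf (p.ε, p.a)) →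
      ∃ b, o = some b ∧ ∃ C, ∀ᶠ i in l, s.mo σ.β (p.ε, p.a) b (y i).1.2 ≤ C := by
  obtain ⟨KL, l1, KR, r1, R, C, hR0, k⟩ := prf hp h1 h2 hL hR
  have k' := fun K (hK : K ∈ s.nk (p.ε, p.a)) => k.mono fun i ⟨K', k1, _, _, k2⟩ =>
    let ⟨_, k3, k4⟩ := hp.ok.en _ (y i).2.1 _ K hK
    k2.ng (Option.mem_unique k1 k3 ▸ k4 : K'.ng = K.ng)
  have gm := hp.okL.gd _ _ hL.inf
  obtain ⟨i₀, K₀, i1, i2, i3, -⟩ := k.exists
  rcases hp.kind with ⟨o, hn, -⟩ | ⟨o, hr, -, c, hΔ, -⟩ | ⟨o, hr, -, c, hΔ, -⟩ | ⟨o, c, -⟩ <;>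
    simp only [o, Option.elim_none, Option.elim_some]
  · have f : ∀ b, ¬K₀.Inf b := fun b hb => by
      obtain ⟨K, k, -⟩ := inf_site hp.ok.toOK (y i₀).2.1 i1 hb
      simp [hn] at k
    obtain ⟨pL, e1⟩ := Option.ne_none_iff_exists'.1 fun e : KL.p = none => f false (by
      simp [Nk.Inf, i2, e])
    obtain ⟨qR, e2⟩ := Option.ne_none_iff_exists'.1 fun e : KR.q = none => f true (by
      simp [Nk.Inf, i3, e])
    refine ⟨trivial, (tendsto_atTop_add_const_right _ (qR - pL - 2) h2).congr'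
      (k.mono fun i ⟨K, k1, k2, k3, _⟩ => ?_), fun o ho _ k => ?_⟩
    · simp only [Pz.len, Option.mem_def.1 k1, Option.elim_some, k2, k3, e1, e2, Option.map_some,
        Option.getD_some]
      ring
    · obtain ⟨b, rfl⟩ := Option.ne_none_iff_exists'.1 ho
      obtain ⟨K, k, -⟩ := k
      simp [hn] at k
  · obtain ⟨K₁, c1, -, c2⟩ := c.2.2.2.2.2.1
    obtain rfl := Option.mem_unique r1 c1
    have hi := (inf_iff hp.ok.toOK (y i₀).2.1 _ true).1 ⟨K₀, i1, by simp [Nk.Inf, i3, c2]⟩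
    obtain ⟨K, k1, k2⟩ := id hi
    have h0 : ∀ᶠ i in l, (δ i).1 = 0 := h1.mono fun i k => (hΔ ▸ k.2.2.Δ :)
    simp only [Pz.mo, Option.mem_def.1 k1, Option.elim_some]
    refine ⟨hi, (mo_top (k' K k1) hg.ok h2 k2 (by
      simpa [pm] using ψ_lt hg (hp.ok.gd _ _ hi) gm (hp.lvR o)) h0 :), fun o ho _ k => ?_⟩
    rcases o with _ | _ | _
    · simp at k
    · obtain ⟨K', k3, k4⟩ := k
      obtain rfl := Option.mem_unique k1 k3
      exact ⟨_, rfl, (mo_bdd (k' K k1) k4 h0 :)⟩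
    · exact absurd rfl ho
  · obtain ⟨K₁, c1, c2, -⟩ := c.2.2.2.2.2.1
    obtain rfl := Option.mem_unique l1 c1
    have hi := (inf_iff hp.ok.toOK (y i₀).2.1 _ false).1 ⟨K₀, i1, by simp [Nk.Inf, i2, c2]⟩
    obtain ⟨K, k1, k2⟩ := id hi
    have h0 : ∀ᶠ i in l, (δ i).2 = 0 := h1.mono fun i k => (hΔ ▸ k.2.2.Δ :)
    simp only [Pz.mo, Option.mem_def.1 k1, Option.elim_some]
    refine ⟨hi, (mo_top (k' K k1) hg.ok h2 k2 (by
      simpa [pm] using ψ_lt hg gm (hp.ok.gd _ _ hi) (hp.lvL hi (.inl (by simp [o])))) h0 :),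
      fun o ho _ k => ?_⟩
    rcases o with _ | _ | _
    · simp at k
    · exact absurd rfl ho
    · obtain ⟨K', k3, k4⟩ := k
      obtain rfl := Option.mem_unique k1 k3
      exact ⟨_, rfl, (mo_bdd (k' K k1) k4 h0 :)⟩
  · obtain ⟨c0, -, -, -, -, ⟨K, k1, k2, k3⟩, c⟩ := c
    have hi : ∀ b, s.Inf (p.ε, p.a) b := fun b => ⟨K, k1, by cases b; exacts [k2, k3]⟩
    refine ⟨hi _, ((mo_sum (k' K k1) hg.ok h2 hR0 k2 k3 (ψ_lt hg (hp.ok.gd _ _ (hi _)) gm (hp.lvR o))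
      (ψ_lt hg gm (hp.ok.gd _ _ (hi _)) (hp.lvL (hi _) (.inr c0)))).atTop_div_const two_pos).congr'
      (h1.mono fun i k => ?_), fun _ _ h => absurd (c0.symm.trans h) one_ne_zero⟩
    have := (c _ _ ⟨0, by omega⟩).symm.trans (congrFun k.1 _)
    simp only [Pz.mo, Option.mem_def.1 k1, Option.elim_some, Pi.zero_apply] at this ⊢
    linarith

end two

variable (d Sl X) (XL XR : Mf 4) (nc nr) (ncL nrL ncR nrR : ℕ) (T) (TL TR : Type)
  [NormedAddCommGroup TL] [NormedSpace ℝ TL] [FiniteDimensional ℝ TL]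
  [NormedAddCommGroup TR] [NormedSpace ℝ TR] [FiniteDimensional ℝ TR]

/-- **DEG-WALL** -/
theorem wallP : WallP d Sl X XL XR nc nr ncL nrL ncR nrR T TL TR := by
  intro s sL sR σ σL σR p hg hp ι l y x z ⟨y', tL, tR, δ, h0, h2, hL, hR⟩
  rcases l.eq_or_neBot with rfl | hl
  · exact ⟨tendsto_bot, fun _ _ _ _ => ⟨0, one_pos, eventually_bot⟩⟩
  have h1 := h0.mono fun _ k => k.2
  have W := wl hp h1 h2 hL hR (hg p.ε).choose_spec
  have E : ∀ a : (d.𝓔 × Sl) × Option Bool, a.2.elim True (s.Inf a.1) →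
      ∀ᶠ i in l, σ.wf a (y' i).1.1 (y' i).1.2 = σ.wf a (y i).1.1 (y i).1.2 :=
    fun ⟨j, o⟩ ho => h0.mono fun i k => by
      cases o
      · simp only [Cel.wf, Option.elim_none, k.1.1]
      · simp only [Cel.wf, Option.elim_some, mo_eqv hp.ok ho k.1]
  refine ⟨(wf_top W.2.1).congr' (E p.wl W.1), fun ⟨j, o⟩ h3 h4 h5 => ?_⟩
  obtain ⟨C, hC⟩ : ∃ C, ∀ᶠ i in l, o.elim ((σ.P (y' i).1.1).len j - 2)
      (fun b => s.mo σ.β j b (y' i).1.2) ≤ C := by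
    by_cases hj : j = (p.ε, p.a)
    · subst hj
      obtain ⟨b, rfl, k⟩ := W.2.2 o (fun e => h3 (e ▸ rfl)) h4 h5
      exact k
    cases o with
    | none =>
      obtain ⟨C, k⟩ : ∃ C, ∀ᶠ i in l, (σ.P (y' i).1.1).len j ≤ C := by
        cases e : p.side j
        exacts [oth_len hp.ok hp.okL hL (hfL h1) ⟨hj, e⟩ h5,
          oth_len hp.ok hp.okR hR (hfR h1) ⟨hj, e⟩ h5]
      exact ⟨C - 2, k.mono fun i k => sub_le_sub_right k 2⟩
    | some b =>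
      have := hp.βo j b hj h5
      cases e : p.side j <;> rw [e] at this
      exacts [oth_mo hp.ok hp.okL hL (hfL h1) ⟨hj, e⟩ h5 this,
        oth_mo hp.ok hp.okR hR (hfR h1) ⟨hj, e⟩ h5 this]
  refine ⟨1 - Real.exp (-C), sub_lt_self _ (Real.exp_pos _),
    (hC.and (E (j, o) (by cases o; exacts [trivial, h5]))).mono fun i ⟨k1, k2⟩ => ?_⟩
  exact k2 ▸ sub_le_sub_left (Real.exp_le_exp.2 (neg_le_neg k1)) 1

end Crest.Agent.X212.Wal9
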