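import Crest.Agent.X212.Pb50.Pt
import Crest.Agent.X212.Win39.Lv

/-!
# Row 212, DEG-WALL (helper9), part 1: averaged levels of `C¹`-close configurations

`av_near`, `av_meas` : averages; `int_le`, `intg`, `le_int` : moments; `Hi.tend`, `far` : uniform
convergence at the ends; `close`, `contOn_L` : continuity of `L`; `lev` : the levels on a neck.
-/

set_option autoImplicit false
set_option linter.unusedSectionVars false
noncomputable section
open scoped Manifold ContDiff Topology InnerProductSpace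
open MeasureTheory Set Function Filter

namespace Crest.Agent.X212.Wal9
open An Sw Sob92 Cyf70 Sw.En3 Pb50
open Wz78 (SA)
open Nd18 (Jv Dp)
open M (Mf pm)
open Win39 (jt Jt lJ)

section real
variable {f F : ℝ → ℝ} {r ε C T : ℝ}

theorem bp_cont : Continuous bp := Real.smoothTransition.contDiff.continuous_deriv (n := 1) le_rfl

theorem bp_off {p : ℝ} (h : p ∉ Ioo (0 : ℝ) 1) : bp p = 0 :=
  (isClosed_eq bp_cont continuous_const).closure_subset_iff.2 (fun _ hp => bp_zero hp)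
    (show p ∈ closure (Icc (0 : ℝ) 1)ᶜ by rwa [closure_compl, interior_Icc])

theorem av_eq (f : ℝ → ℝ) : av f = ∫ p in Ioo (0 : ℝ) 1, bp p * f p :=
  (setIntegral_eq_integral_of_forall_compl_eq_zero fun p hp => by rw [bp_off hp, zero_mul]).symm

theorem bp_one : ∫ p in Ioo (0 : ℝ) 1, bp p = 1 := by
  rw [← integral_Ioc_eq_integral_Ioo, ← intervalIntegral.integral_of_le zero_le_one, bp,
    intervalIntegral.integral_deriv_eq_sub (fun _ _ =>
      (Real.smoothTransition.contDiff (n := 1)).differentiable one_ne_zero _)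
      (bp_cont.intervalIntegrable _ _)]
  simp

theorem av_near (hf : ContinuousOn f (Ioo 0 1)) (h : ∀ p ∈ Ioo (0 : ℝ) 1, |f p - r| ≤ ε) :
    |av f - r| ≤ ε := by
  have i1 : IntegrableOn bp (Ioo 0 1) := bp_cont.integrableOn_Icc.mono_set Ioo_subset_Icc_self
  have hb : ∀ᵐ p ∂volume.restrict (Ioo (0 : ℝ) 1), ‖bp p * (f p - r)‖ ≤ bp p * ε :=
    (ae_restrict_mem measurableSet_Ioo).mono fun p hp => by
      have : 0 ≤ bp p := Real.smoothTransition.monotone.deriv_nonneg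
      rw [norm_mul, Real.norm_of_nonneg this]
      exact mul_le_mul_of_nonneg_left (h p hp) this
  have i2 := (i1.mul_const ε).mono' ((bp_cont.continuousOn.mul
    (hf.sub continuousOn_const)).aestronglyMeasurable measurableSet_Ioo) hb
  have e : ∀ r : ℝ, ∫ p in Ioo (0 : ℝ) 1, bp p * r = r := fun r => by
    rw [integral_mul_const, bp_one, one_mul]
  have e' := integral_add i2 (i1.mul_const r)
  simp only [Pi.mul_apply, Pi.sub_apply, ← mul_add, sub_add_cancel, e] at e'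
  rw [av_eq, e', add_sub_cancel_right]
  exact (norm_integral_le_of_norm_le (i1.mul_const ε) hb).trans_eq (e ε)

/-- the times seen by the averaged level -/
abbrev Wn (t : ℝ) : Set ℝ := Ioo (t - 1 / 2) (t + 1 / 2)

theorem mem_Wn {t p : ℝ} (hp : p ∈ Ioo (0 : ℝ) 1) : t + p - 1 / 2 ∈ Wn t :=
  ⟨by linarith [hp.1], by linarith [hp.2]⟩

theorem av_meas {J : Set ℝ} (hJ : IsOpen J) (hf : ContinuousOn f J) : ∃ h : ℝ → ℝ, Measurable h ∧
    ∀ t, Wn t ⊆ J → av (fun p => f (t + p - 1 / 2)) = h t := by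
  classical
  have m := hf.measurable_piecewise (continuousOn_const (c := (0 : ℝ))) hJ.measurableSet
  refine ⟨fun t => av fun p => J.piecewise f (fun _ => 0) (t + p - 1 / 2),
    (StronglyMeasurable.integral_prod_right (f := fun t p => bp p * J.piecewise f (fun _ => 0)
      (t + p - 1 / 2)) (Measurable.stronglyMeasurable ((bp_cont.measurable.comp measurable_snd).mul
        (m.comp (by fun_prop))))).measurable, fun t ht => ?_⟩
  simp only [av_eq]
  exact setIntegral_congr_fun measurableSet_Ioo fun p hp => by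
    simp only [piecewise_eq_of_mem _ _ _ (ht (mem_Wn hp))]

theorem int_le (hT : 0 ≤ T) (h : ∀ t, |F t| ≤ C) (h0 : ∀ t, T < |t| → F t = 0) :
    ∫ t, F t ≤ C * (2 * T) := by
  rw [← setIntegral_eq_integral_of_forall_compl_eq_zero (s := Icc (-T) T)
    fun t ht => h0 t (not_le.1 fun k => ht (abs_le.1 k))]
  refine (Real.le_norm_self _).trans ((norm_setIntegral_le_of_norm_le_const (C := C)
    measure_Icc_lt_top fun t _ => h t).trans_eq ?_)
  rw [Real.volume_real_Icc_of_le (by linarith)]; ring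

theorem intg (hm : Measurable F) (h : ∀ t, |F t| ≤ C) (h0 : ∀ t, T < |t| → F t = 0) :
    Integrable F :=
  (integrableOn_iff_integrable_of_support_subset (s := Icc (-T) T) fun t ht =>
    abs_le.1 (not_lt.1 fun k => ht (h0 t k))).1
    (Measure.integrableOn_of_bounded measure_Icc_lt_top.ne hm.aestronglyMeasurable (.of_forall h))

theorem le_int {a b μ : ℝ} (hF : Integrable F) (hT : 0 ≤ T) (hC : 0 ≤ C) (hμ : 0 ≤ μ)
    (h1 : ∀ t, -C ≤ F t) (h2 : ∀ t, T < |t - a| → T < |t - b| → 0 ≤ F t)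
    (h3 : ∀ t, a + T < t → t < b - T → μ ≤ F t) : μ * (b - a - 2 * T) - 4 * T * C ≤ ∫ t, F t := by
  have i : ∀ x y c : ℝ, Integrable ((Icc x y).indicator fun _ => c) := fun x y c =>
    (integrableOn_const measure_Icc_lt_top.ne).integrable_indicator measurableSet_Icc
  have e : ∀ x c : ℝ, ∫ t, (Icc (x - T) (x + T)).indicator (fun _ => c) t = 2 * T * c := fun x c => by
    rw [integral_indicator_const _ measurableSet_Icc, Real.volume_real_Icc_of_le (by linarith)]
    ring_nf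
  have i0 : Integrable ((Ioo (a + T) (b - T)).indicator fun _ => μ) :=
    (integrableOn_const measure_Ioo_lt_top.ne).integrable_indicator measurableSet_Ioo
  have k := integral_mono ((i0.sub (i (a - T) (a + T) C)).sub (i (b - T) (b + T) C)) hF fun t => by
    simp only [Pi.sub_apply, indicator, mem_Ioo, mem_Icc]
    have := h1 t
    split_ifs with k1 k2 k3 k3 k2 k3 k3
    any_goals linarith [h3 t k1.1 k1.2]
    any_goals linarith
    simpa using h2 t (not_le.1 fun k => k2 ⟨by linarith [abs_le.1 k], by linarith [abs_le.1 k]⟩)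
      (not_le.1 fun k => k3 ⟨by linarith [abs_le.1 k], by linarith [abs_le.1 k]⟩)
  rw [integral_sub' (i0.sub (i _ _ _)) (i _ _ _), integral_sub' i0 (i _ _ _), e, e,
    integral_indicator_const _ measurableSet_Ioo, Real.volume_real_Ioo, smul_eq_mul] at k
  nlinarith [le_max_left (b - T - (a + T)) 0]

end real

section tend
variable {E : Type} [NormedAddCommGroup E] [NormedSpace ℝ E] [FiniteDimensional ℝ E]
  [MeasurableSpace E] [BorelSpace E]
  {HM : Type} [TopologicalSpace HM] {I : ModelWithCorners ℝ E HM} [I.Boundaryless]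
  {Y : Type} [TopologicalSpace Y] [ChartedSpace HM Y] [IsManifold I ∞ Y] [MeasurableSpace Y]
  [T2Space Y] [BorelSpace Y] [SecondCountableTopology Y] [CompactSpace Y]
  {N ι : Type} [NormedAddCommGroup N] [NormedSpace ℝ N] [Fintype ι] {F : Fr I Y ι}
  {f : Y × ℝ → N} {s : Bool} {C : ℕ → ℝ}

/-- functions of class `Hi` tend to zero at the ends -/
theorem hi_tend (hT : (cyl F).Tame C) (h : Hi (cylP F.toPre) f) : Tendsto f (nd Y s) (𝓝 0) := by
  obtain ⟨A, hA⟩ : ∃ A, ∀ T : ℝ, (cylP F.toPre).CBs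
      (fun x => Real.smoothTransition (pm s * x.2 - T)) A := by
    obtain ⟨A, hA⟩ := Nd18.bd_st
    refine ⟨A, fun T => ?_⟩
    cases s
    · simpa [pm, sub_eq_neg_add, add_comm] using (hA.refl (-T)).cyl F.toPre
    · simpa [pm, sub_eq_add_neg] using (hA.shift (-T)).cyl F.toPre
  have hS : ∀ n : ℕ, IsClosed {x : Y × ℝ | (n : ℝ) ≤ pm s * x.2} := fun n =>
    isClosed_le continuous_const (by fun_prop)
  have h0 := NS_tendsto (F := cylP F.toPre) (fun n => (hS n).measurableSet)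
    (fun n m k x hx => mem_ofPred.2 (le_trans (Nat.cast_le.2 k) (mem_ofPred.1 hx)))
    (eq_empty_of_forall_notMem fun x hx => let ⟨n, hn⟩ := exists_nat_gt (pm s * x.2)
      hn.not_ge (mem_iInter.1 hx n)) 4 (h.2 4)
  have h1 := (h0.const_mul (|C 0| * ((cK (Option ι) 4 * C 4) ^ 2 *
    (cK (Option ι) 4 * A 4) ^ 2))).sqrt
  rw [mul_zero, Real.sqrt_zero] at h1
  refine Metric.tendsto_nhds.2 fun ε hε => ?_
  obtain ⟨n, hn⟩ := (h1.eventually (gt_mem_nhds hε)).exists
  refine nd_basis.eventually_iff.2 ⟨n + 1, trivial, fun x hx => ?_⟩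
  rw [dist_zero_right]
  refine (Real.le_sqrt_of_sq_le ?_).trans_lt hn
  have k0 := (hA n).1.smul h.1
  have k1 := NS_smul (hA n).1 h.1 ((hA n).2 4) (FL_FS (h.2 4) {x | (n : ℝ) ≤ pm s * x.2})
  obtain ⟨χ, h2, h3, -, h4⟩ := hT.exh {x} isCompact_singleton
  have k2 := (Sup.of_tame hT).sq_le (h2.1.smul k0)
    (hcs_bil_left (ContinuousLinearMap.lsmul ℝ ℝ) _ h3) x
  have k3 := NS_smul h2.1 k0 (h2.2 4) k1.1
  rw [NS_of_tsupport 4 (closure_minimal (fun z hz => mem_ofPred.2 (not_lt.1 fun k => hz (by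
    simp only [Pi.smul_apply', Real.smoothTransition.zero_of_nonpos (sub_nonpos.2 k.le), zero_smul,
      smul_zero]))) (hS n))] at k3
  simp only [Pi.smul_apply', h4 x rfl, one_smul, Real.smoothTransition.one_of_one_le
    (show 1 ≤ pm s * x.2 - n by linarith [mem_ofPred.1 hx])] at k2
  refine k2.trans ?_
  rw [mul_assoc, mul_assoc]
  exact mul_le_mul_of_nonneg_left (k3.2.trans (mul_le_mul_of_nonneg_left k1.2 (sq_nonneg _)))
    (abs_nonneg _)

theorem gl_tend (hT : (cyl F).Tame C) (w : List (Option ι)) : ∀ {f : Y × ℝ → N}, Gl F.toPre s f →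
    Tendsto ((cylP F.toPre).Dw w f) (nd Y s) (𝓝 0) := by
  induction w with
  | nil => exact fun ⟨_, a, b⟩ => (hi_tend hT a).congr' b.symm
  | cons a w ih => exact fun h => ih (h.D a)

end tend

variable {κ lam ν : Type} [Fintype κ] [Fintype lam] [Fintype ν] [DecidableEq ν]
  {e : En3 κ lam ν} {c c' : e.ZC} {τ η ε : ℝ} {S A : Set ℝ} {v : e.YC} {s : Bool}
  {X : Mf 4} {nc : ℕ} {b : Bg X.I X.M κ lam ν nc}

/-- uniform convergence at an end -/
theorem far (H : e.OK) (K : Nk e b) (h : K.Inf s) {c : Cfg X.M κ ν} (hc : b.Adm c)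
    (hv : e.cyl.Adm (fz v)) (ha : K.Asy s v c) (k : ℕ) (hη : 0 < η) :
    ∃ T, Cl (K.pb c) (fz v) {τ | T < pm s * τ} k η := by
  obtain ⟨C, hC⟩ := H.cyl.tame
  obtain ⟨h1, h2⟩ := (asy_iff K h hc hv).1 ha
  obtain ⟨T, -, hT⟩ := nd_basis.eventually_iff.1
    ((eventually_all_finite (List.finite_length_le (Option κ) k)).2 fun w _ =>
      (eventually_all.2 fun i => (gl_tend hC w (h1 i)).norm.eventually
        (ge_mem_nhds (by simpa using hη))).and
        ((gl_tend hC w h2).norm.eventually (ge_mem_nhds (by simpa using hη))))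
  exact ⟨T, fun w hw x hx => hT hx.2 w hw⟩

/-- smooth near the slice -/
def Sa (c : e.ZC) (τ : ℝ) : Prop :=
  ∀ y, (∀ k, SA (IC e.Y.I) (c.a k) (y, τ)) ∧ SA (IC e.Y.I) c.Φ (y, τ)

theorem Sa.a (h : Sa c τ) (k : κ) : Sm e.Y.I ((sl c τ).a k) := sm_sl fun y => (h y).1 (some k)

theorem Sa.P (h : Sa c τ) : Sm e.Y.I (sl c τ).Φ := sm_sl fun y => (h y).2

theorem sa_fz (hv : e.cyl.Adm (fz v)) (τ : ℝ) : Sa (fz v) τ := fun _ => ⟨fun k => hv.sa k _, hv.sΦ _⟩

theorem sa_pb (K : Nk e b) {c : Cfg X.M κ ν} (hc : b.Adm c) (h : τ ∈ K.J) : Sa (K.pb c) τ :=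
  fun y => ⟨fun k => sa_ψ K (src K h y) (hc.sa k _), sa_ψ K (src K h y) (hc.sΦ _)⟩

theorem jt_eq (h : Sa c τ) (y : e.Y.M) : jt (sl c τ) y = (fun k => c.a (some k) (y, τ),
    fun i k => e.D.Z.D (some i) (c.a (some k)) (y, τ), c.Φ (y, τ),
    fun i => e.D.Z.D (some i) c.Φ (y, τ)) :=
  Prod.ext rfl (Prod.ext (funext₂ fun i _ => (D_some_at e.D.F.toPre ((h y).1 _).md i).symm)
    (Prod.ext rfl (funext fun i => (D_some_at e.D.F.toPre (h y).2.md i).symm)))

theorem jt_cl (h : Sa c τ) (h' : Sa c' τ) (k : Cl c c' S 1 η) (hτ : τ ∈ S) (y : e.Y.M) :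
    ‖jt (sl c τ) y - jt (sl c' τ) y‖ ≤ η := by
  have h0 := Win39.Cl.pt k (x := (y, τ)) ⟨trivial, hτ⟩
  have h1 := fun i => k [some i] le_rfl (y, τ) ⟨trivial, hτ⟩
  have hη := (norm_nonneg _).trans h0.2
  rw [jt_eq h, jt_eq h']
  refine max_le ((pi_norm_le_iff_of_nonneg hη).2 fun k => h0.1 (some k)) (max_le
    ((pi_norm_le_iff_of_nonneg hη).2 fun i => (pi_norm_le_iff_of_nonneg hη).2 fun k => ?_)
    (max_le h0.2 ((pi_norm_le_iff_of_nonneg hη).2 fun i => ?_)))
  · exact (congrArg norm (dv_sub ((h y).1 _).md ((h' y).1 _).md)).symm.trans_le ((h1 i).1 (some k))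
  · exact (congrArg norm (dv_sub (h y).2.md (h' y).2.md)).symm.trans_le (h1 i).2

theorem cont_jt (h : ∀ τ ∈ A, Sa c τ) : Continuous fun p : A × e.Y.M => jt (sl c p.1) p.2 := by
  have k : ∀ {N : Type} [NormedAddCommGroup N] [NormedSpace ℝ N] {f : e.Y.M × ℝ → N},
      (∀ p : A × e.Y.M, SA (IC e.Y.I) f (p.2, p.1)) → Continuous fun p : A × e.Y.M => f (p.2, p.1) :=
    fun hf => continuous_iff_continuousAt.2 fun p => ContinuousAt.comp (f := fun p : A × e.Y.M =>
      (p.2, p.1.1)) (hf p).continuousAt (by fun_prop)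
  simp only [fun p : A × e.Y.M => jt_eq (h _ p.1.2) p.2]
  exact (continuous_pi fun j => k fun p => (h _ p.1.2 _).1 _).prodMk
    ((continuous_pi fun i => continuous_pi fun j => k fun p => sa_D _ ((h _ p.1.2 _).1 _) _).prodMk
      ((k fun p => (h _ p.1.2 _).2).prodMk (continuous_pi fun i => k fun p => sa_D _ (h _ p.1.2 _).2 _)))

variable (H : e.OK)
include H

theorem contOn_L (h : ∀ τ ∈ A, Sa c τ) : ContinuousOn (fun τ => L (sl c τ)) A :=
  continuousOn_iff_continuous_domRestrict.2 ((Win39.cont_lJ H (cont_jt h)).congr fun τ =>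
    (Win39.L_jt H (h _ τ.2).a (h _ τ.2).P).symm)

/-- uniform continuity of `L` near a compact family of slices -/
theorem close (hA : IsCompact A) (h : ∀ τ ∈ A, Sa c τ) (hε : 0 < ε) : ∃ η > 0, ∀ τ ∈ A,
    ∀ (c' : e.ZC) τ', Sa c' τ' → (∀ y, ‖jt (sl c' τ') y - jt (sl c τ) y‖ ≤ η) →
      |L (sl c' τ') - L (sl c τ)| ≤ ε := by
  have := isCompact_iff_compactSpace.1 hA
  let γ := ContinuousMap.curry ⟨_, cont_jt h⟩
  obtain ⟨δ, hδ, k⟩ := Metric.mem_uniformity_dist.1
    ((isCompact_range γ.continuous).uniformContinuousAt_of_continuousAt (fun j => lJ j)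
      (fun _ _ => (Win39.cont_lJ H continuous_eval).continuousAt) (Metric.dist_mem_uniformity hε))
  refine ⟨δ / 2, half_pos hδ, fun τ hτ c' τ' h' hd => ?_⟩
  have := k (a := γ ⟨τ, hτ⟩) (b := ⟨_, Win39.cont_jt h'.a h'.P⟩)
    (((ContinuousMap.dist_le (half_pos hδ).le).2 fun y =>
      (dist_eq_norm' _ _).trans_le (hd y)).trans_lt (half_lt_self hδ)) ⟨_, rfl⟩
  rw [Win39.L_jt H h'.a h'.P, Win39.L_jt H (h τ hτ).a (h τ hτ).P, abs_sub_comm]
  exact le_of_lt this

theorem lb_near {t r : ℝ} (h : ∀ τ ∈ Wn t, Sa c τ) (k : ∀ τ ∈ Wn t, |L (sl c τ) - r| ≤ ε) :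
    |lb c t - r| ≤ ε :=
  av_near ((contOn_L H h).comp (by fun_prop) fun _ => mem_Wn) fun _ hp => k _ (mem_Wn hp)

/-- the levels on a neck: bounded, and flat near the infinite ends -/
theorem lev (K : Nk e b) (h0 : ∀ τ ∈ K.J, Sa c τ) {β : Bool → e.YC} (hβ : ∀ s, K.Inf s → Gd (β s) ∧
    ∀ η > 0, ∃ T, Cl c (fz (β s)) {τ | T < pm s * τ} 1 η) {ι : Type} {l : Filter ι} {z : ι → e.ZC}
    {S : ι → Set ℝ} (hS : ∀ i, S i ⊆ K.deep 1) (hz : ∀ η > 0, ∀ᶠ i in l, Cl (z i) c (S i) 1 η) :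
    ∃ T C, ∀ᶠ i in l, ∀ t, Wn t ⊆ S i → (∀ τ ∈ Wn t, Sa (z i) τ) → |e.ψ (lb (z i) t)| ≤ C ∧
      ∀ s, K.Inf s → T < pm s * t → e.ψ (lb (z i) t) = e.ψ (L (β s)) := by
  have h1 := fun i τ (h : τ ∈ S i) => h0 τ (deep_J K one_pos (hS i h))
  have A : ∀ s, K.Inf s → ∀ ε > 0, ∃ T, ∀ᶠ i in l, ∀ τ ∈ S i, Sa (z i) τ → T < pm s * τ →
      |L (sl (z i) τ) - L (β s)| ≤ ε := fun s hs ε hε => by
    have hv := sa_fz (hβ s hs).1.crit.1
    obtain ⟨η, hη, k⟩ := close H (isCompact_singleton (x := 0)) (fun τ _ => hv τ) hε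
    obtain ⟨T, hT⟩ := (hβ s hs).2 _ (half_pos hη)
    refine ⟨T, (hz _ (half_pos hη)).mono fun i hi τ hτ a b => k 0 rfl _ _ a fun y => ?_⟩
    exact (norm_sub_le_norm_sub_add_norm_sub _ _ _).trans ((add_le_add
      (jt_cl a (h1 i τ hτ) hi hτ y) (jt_cl (h1 i τ hτ) (hv τ) hT b y)).trans_eq (add_halves η))
  have B : ∀ s, ∃ T C, ∀ᶠ i in l, ∀ τ ∈ S i, Sa (z i) τ → T < pm s * τ → |L (sl (z i) τ)| ≤ C := by
    intro s
    by_cases hs : K.Inf s
    · obtain ⟨T, hT⟩ := A s hs 1 one_pos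
      exact ⟨T, |L (β s)| + 1, hT.mono fun i hi τ a b c => by
        linarith [abs_sub_abs_le_abs_sub (L (sl (z i) τ)) (L (β s)), hi τ a b c]⟩
    · refine ⟨|K.p.getD 0| + |K.q.getD 0|, 0, .of_forall fun i τ a _ c => absurd c (not_lt.2 ?_)⟩
      have := deep_J K one_pos (hS i a)
      cases s
      · obtain ⟨p, hp⟩ := Option.ne_none_iff_exists'.1 hs
        simp only [pm, hp, Option.getD_some, Bool.false_eq_true, if_false]
        linarith [this.1 p hp, neg_abs_le p, abs_nonneg (K.q.getD 0)]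
      · obtain ⟨q, hq⟩ := Option.ne_none_iff_exists'.1 hs
        simp only [pm, hq, Option.getD_some, if_true]
        linarith [this.2 q hq, le_abs_self q, abs_nonneg (K.p.getD 0)]
  choose T C B using B
  have hA : IsCompact (Dp K.p K.q 1 ∩ Icc (-T false) (T true)) :=
    isCompact_Icc.inter_left Nd18.isClosed_Dp
  have h2 := fun τ (h : τ ∈ Dp K.p K.q 1 ∩ Icc (-T false) (T true)) => h0 τ (Nd18.Dp_sub one_pos h.1)
  obtain ⟨C₀, hC⟩ := hA.exists_bound_of_continuousOn (contOn_L H h2)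
  obtain ⟨η, hη, k⟩ := close H hA h2 one_pos
  have D : ∀ s, ∃ T, ∀ᶠ i in l, ∀ t, Wn t ⊆ S i → (∀ τ ∈ Wn t, Sa (z i) τ) → K.Inf s →
      T < pm s * t → e.ψ (lb (z i) t) = e.ψ (L (β s)) := fun s => by
    by_cases hs : K.Inf s
    · obtain ⟨ε, hε, h⟩ := Metric.nhds_basis_closedBall.eventually_iff.1 (hβ s hs).1.flat
      obtain ⟨T, hT⟩ := A s hs ε hε
      refine ⟨T + 1, hT.mono fun i hi t a b _ c => h (lb_near H b fun τ hτ =>
        hi τ (a hτ) (b τ hτ) ?_)⟩
      cases s <;> simp only [pm, Bool.false_eq_true, if_false, if_true] at c ⊢ <;>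
        linarith [hτ.1, hτ.2]
    · exact ⟨0, .of_forall fun _ _ _ _ h => absurd h hs⟩
  choose T' D using D
  set R := max (C₀ + 1) (max (C false) (C true))
  refine ⟨max (T' false) (T' true), max |e.ψ (-R)| |e.ψ R|, ?_⟩
  filter_upwards [B false, B true, D false, D true, hz η hη] with i b0 b1 d0 d1 hi t a b
  refine ⟨?_, fun s hs ht => ?_⟩
  · have := abs_le.1 (lb_near H (r := 0) (ε := R) b fun τ hτ => ?_)
    · rw [sub_zero] at this
      exact abs_le_max_abs_abs (H.mψ this.1) (H.mψ this.2)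
    rw [sub_zero]
    by_cases k0 : T false < pm false * τ
    · exact (b0 τ (a hτ) (b τ hτ) k0).trans (le_max_of_le_right (le_max_left _ _))
    by_cases k1 : T true < pm true * τ
    · exact (b1 τ (a hτ) (b τ hτ) k1).trans (le_max_of_le_right (le_max_right _ _))
    simp only [pm, Bool.false_eq_true, if_false, if_true] at k0 k1
    have m : τ ∈ Dp K.p K.q 1 ∩ Icc (-T false) (T true) :=
      ⟨deep_sub K (hS i (a hτ)), by linarith, by linarith⟩
    have := k τ m _ _ (b τ hτ) (jt_cl (b τ hτ) (h2 τ m) hi (a hτ))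
    refine le_max_of_le_left ?_
    linarith [abs_sub_abs_le_abs_sub (L (sl (z i) τ)) (L (sl c τ)), (Real.norm_eq_abs _).symm.trans_le (hC τ m)]
  · cases s
    exacts [d0 t a b hs ((le_max_left _ _).trans_lt ht), d1 t a b hs ((le_max_right _ _).trans_lt ht)]

end Crest.Agent.X212.Wal9
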